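import Vale.Agent.P195.HomLength

/-!
The counting argument: a linear recurrence that runs backwards cannot exist.
-/

namespace Vale.Agent.P195

theorem backward_vanish {V : Type} [AddCommGroup V] [Module ℚ V] [Module.Finite ℚ V]
    (K : V →ₗ[ℚ] V) (v : ℕ → V) (hv : ∀ m, K (v (m + 1)) = v m) (φ : V →ₗ[ℚ] ℚ)
    (hφ : ∀ m, φ (v (m + 1)) = 0) : φ (v 0) = 0 := by
  let W : ℕ → Submodule ℚ V := fun m => Submodule.span ℚ (v '' Set.Ici m)
  have hle : W 1 ≤ W 0 := Submodule.span_mono (Set.image_mono (Set.Ici_subset_Ici.2 zero_le_one))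
  have hmap : W 0 = (W 1).map K := by
    rw [Submodule.map_span]
    show Submodule.span ℚ (v '' Set.Ici 0) = _
    refine congrArg (Submodule.span ℚ) ?_
    ext x
    simp only [Set.mem_image, Set.mem_Ici]
    constructor
    · rintro ⟨m, -, rfl⟩
      exact ⟨v (m + 1), ⟨m + 1, by omega, rfl⟩, hv m⟩
    · rintro ⟨_, ⟨m, hm, rfl⟩, rfl⟩
      obtain ⟨k, rfl⟩ : ∃ k, m = k + 1 := ⟨m - 1, by omega⟩
      exact ⟨k, Nat.zero_le _, (hv k).symm⟩
  have heq : W 1 = W 0 :=
    Submodule.eq_of_le_of_finrank_le hle (hmap ▸ Submodule.finrank_map_le K (W 1))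
  have h0 : v 0 ∈ W 1 := heq ▸ Submodule.subset_span ⟨0, Set.mem_Ici.2 le_rfl, rfl⟩
  have hker : W 1 ≤ LinearMap.ker φ := by
    refine Submodule.span_le.2 ?_
    rintro _ ⟨m, hm, rfl⟩
    obtain ⟨k, rfl⟩ : ∃ k, m = k + 1 := ⟨m - 1, by have := Set.mem_Ici.1 hm; omega⟩
    exact hφ k
  exact hker h0

variable {R A : Type} [CommRing R] [IsArtinianRing R] [Ring A] [Algebra R A] [IsArtinianRing A]

theorem exists_factor {P X Y : Type} [AddCommGroup P] [Module A P] [AddCommGroup X] [Module A X]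
    [AddCommGroup Y] [Module A Y] {g : P →ₗ[A] X} (hg : Function.Surjective g) (f : P →ₗ[A] Y)
    (hf : LinearMap.ker g ≤ LinearMap.ker f) : ∃ h : X →ₗ[A] Y, h ∘ₗ g = f := by
  refine ⟨(LinearMap.ker g).liftQ f hf ∘ₗ (g.quotKerEquivOfSurjective hg).symm,
    LinearMap.ext fun p => ?_⟩
  have h2 : (g.quotKerEquivOfSurjective hg).symm (g p) = Submodule.Quotient.mk p := by
    rw [LinearEquiv.symm_apply_eq]; rfl
  show (LinearMap.ker g).liftQ f hf ((g.quotKerEquivOfSurjective hg).symm (g p)) = f p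
  rw [h2]; rfl

/-- If every map out of the kernel extends, the lengths add up. -/
theorem hl_ses {P X K Y : Type} [AddCommGroup P] [Module A P] [AddCommGroup X] [Module A X]
    [AddCommGroup K] [Module A K] [AddCommGroup Y] [Module A Y] [Module R Y] [IsScalarTower R A Y]
    [Module.Finite A P] [Module.Finite R Y] (g : P →ₗ[A] X) (inc : K →ₗ[A] P)
    (hg : Function.Surjective g) (hex : Function.Exact inc g)
    (hext : ∀ f : K →ₗ[A] Y, ∃ f' : P →ₗ[A] Y, f' ∘ₗ inc = f) :
    hl R A P Y = hl R A X Y + hl R A K Y := by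
  haveI := hom_finite R A P Y
  refine len_exact (preR g) (preR inc) ?_ ?_ ?_
  · intro a b hab
    refine LinearMap.ext fun x => ?_
    obtain ⟨p, rfl⟩ := hg x
    exact LinearMap.congr_fun hab p
  · exact fun f => hext f
  · intro f
    constructor
    · intro hf
      refine exists_factor hg f fun p hp => ?_
      obtain ⟨k, rfl⟩ := (hex p).1 (LinearMap.mem_ker.1 hp)
      exact LinearMap.congr_fun hf k
    · rintro ⟨h, rfl⟩
      refine LinearMap.ext fun k => ?_
      show h (g (inc k)) = 0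
      rw [hex.apply_apply_eq_zero, map_zero]

/-- A map onto the top of a local module is onto. -/
theorem surjective_of_not_rad (h3 : Cube0 A) {X Q S : Type} [AddCommGroup X] [Module A X]
    [AddCommGroup Q] [Module A Q] [AddCommGroup S] [Module A S] [IsSimpleModule A S]
    {q : Q →ₗ[A] S} (hqk : LinearMap.ker q ≤ rad A Q)
    {f : X →ₗ[A] Q} (hf : ¬ ∀ x, f x ∈ rad A Q) : Function.Surjective f := by
  push Not at hf
  obtain ⟨x, hx⟩ := hf
  have hne : q ∘ₗ f ≠ 0 := fun e => hx (hqk (LinearMap.congr_fun e x))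
  have hs : Function.Surjective (q ∘ₗ f) := LinearMap.surjective_of_ne_zero hne
  refine LinearMap.range_eq_top.1 (eq_top_of_sup_rad h3 (top_le_iff.1 fun y _ => ?_))
  obtain ⟨z, hz⟩ := hs (q y)
  refine Submodule.mem_sup.2 ⟨f z, ⟨z, rfl⟩, y - f z, hqk ?_, by abel⟩
  rw [LinearMap.mem_ker, map_sub]
  exact sub_eq_zero.2 hz.symm

/-- The first layer count: maps to the radical of a local projective target. -/
theorem hl_layer (h3 : Cube0 A) {X X' P Q S : Type} [AddCommGroup X] [Module A X] [AddCommGroup X']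
    [Module A X'] [AddCommGroup P] [Module A P] [Module.Finite A P] [AddCommGroup Q] [Module A Q]
    [Module R Q] [IsScalarTower R A Q] [Module.Finite R Q] [AddCommGroup S] [Module A S]
    [IsSimpleModule A S] {q : Q →ₗ[A] S} (hqk : LinearMap.ker q ≤ rad A Q)
    (g : P →ₗ[A] X) (inc : X' →ₗ[A] P) (hg : Function.Surjective g)
    (hex : Function.Exact inc g) (hinc : ∀ y, inc y ∈ rad A P)
    (clean : ∀ x ∈ rad2 A P, ∃ y ∈ rad A X', inc y = x)
    (hA : ∀ f : X →ₗ[A] Q, ∀ x, f x ∈ rad A Q)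
    (hext : ∀ f : X' →ₗ[A] Q, ∃ f' : P →ₗ[A] Q, f' ∘ₗ inc = f) :
    hl R A P (rad A Q) = hl R A X Q + hl R A X' (rad2 A Q) := by
  haveI : Module.Finite R (rad A Q) :=
    Module.Finite.of_injective ((rad A Q).subtype.restrictScalars R) (Submodule.subtype_injective _)
  haveI := hom_finite R A P (rad A Q)
  let a : (X →ₗ[A] Q) →ₗ[R] (P →ₗ[A] rad A Q) :=
    { toFun := fun h => (h ∘ₗ g).codRestrict (rad A Q) fun p => hA h (g p)
      map_add' := fun _ _ => rfl
      map_smul' := fun _ _ => rfl }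
  let b : (P →ₗ[A] rad A Q) →ₗ[R] (X' →ₗ[A] rad2 A Q) :=
    { toFun := fun f => (((rad A Q).subtype ∘ₗ f) ∘ₗ inc).codRestrict (rad2 A Q) fun y =>
        apply_mem_rad2_of_rad ((rad A Q).subtype ∘ₗ f) (fun p => (f p).2) (hinc y)
      map_add' := fun _ _ => rfl
      map_smul' := fun _ _ => rfl }
  refine len_exact a b ?_ ?_ ?_
  · intro u v huv
    refine LinearMap.ext fun x => ?_
    obtain ⟨p, rfl⟩ := hg x
    exact congrArg Subtype.val (LinearMap.congr_fun huv p)
  · intro k
    obtain ⟨f', hf'⟩ := hext ((rad2 A Q).subtype ∘ₗ k)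
    have hin : ∀ p, f' p ∈ rad A Q := by
      by_contra hn
      have hsurj := surjective_of_not_rad h3 hqk hn
      have hkill : ∀ y ∈ rad A X', k y = 0 := by
        intro y hy
        refine Subtype.ext ?_
        refine Submodule.smul_induction_on hy (fun c hc z _ => ?_)
          (fun u v hu hv => by rw [map_add, Submodule.coe_add, hu, hv, ZeroMemClass.coe_zero,
            add_zero])
        rw [map_smul, Submodule.coe_smul, ZeroMemClass.coe_zero]
        exact smul_rad2 h3 hc (k z).2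
      have hQ2 : rad2 A Q = ⊥ := by
        rw [eq_bot_iff, rad2, ← map_rad_eq hsurj, ← Submodule.map_smul'']
        rintro _ ⟨x, hx, rfl⟩
        obtain ⟨y, hy, rfl⟩ := clean x hx
        have := LinearMap.congr_fun hf' y
        rw [Submodule.mem_bot]
        exact this.trans (congrArg Subtype.val (hkill y hy))
      have hk : LinearMap.ker g ≤ LinearMap.ker f' := by
        intro p hp
        obtain ⟨y, rfl⟩ := (hex p).1 (LinearMap.mem_ker.1 hp)
        rw [LinearMap.mem_ker]
        have := LinearMap.congr_fun hf' y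
        exact this.trans ((Submodule.mem_bot A).1 (hQ2.le (k y).2))
      obtain ⟨h, rfl⟩ := exists_factor hg f' hk
      exact hn fun p => hA h (g p)
    exact ⟨f'.codRestrict _ hin, LinearMap.ext fun y => Subtype.ext (LinearMap.congr_fun hf' y)⟩
  · intro f
    constructor
    · intro hf
      obtain ⟨h, hh⟩ := exists_factor hg ((rad A Q).subtype ∘ₗ f) fun p hp => by
        obtain ⟨y, rfl⟩ := (hex p).1 (LinearMap.mem_ker.1 hp)
        exact congrArg Subtype.val (LinearMap.congr_fun hf y)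
      exact ⟨h, LinearMap.ext fun p => Subtype.ext (LinearMap.congr_fun hh p)⟩
    · rintro ⟨h, rfl⟩
      refine LinearMap.ext fun y => Subtype.ext ?_
      show h (g (inc y)) = 0
      rw [hex.apply_apply_eq_zero, map_zero]

variable {ι : Type} [Fintype ι] {S : ι → Type} [∀ i, AddCommGroup (S i)] [∀ i, Module A (S i)]
  [∀ i, Module R (S i)] [∀ i, IsScalarTower R A (S i)] [∀ i, Module.Finite R (S i)]
  [∀ i, IsSimpleModule A (S i)]
  {Q : ι → Type} [∀ i, AddCommGroup (Q i)] [∀ i, Module A (Q i)]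
  [∀ i, Module R (Q i)] [∀ i, IsScalarTower R A (Q i)] [∀ i, Module.Finite A (Q i)]
  [∀ i, Module.Finite R (Q i)]
  {X P : ℕ → Type} [∀ m, AddCommGroup (X m)] [∀ m, Module A (X m)]
  [∀ m, AddCommGroup (P m)] [∀ m, Module A (P m)] [∀ m, Module.Projective A (P m)]
  [∀ m, Module.Finite A (P m)]
  [Module R (X 0)] [IsScalarTower R A (X 0)] [Module.Finite A (X 0)] [Module.Finite R (X 0)]
  [Nontrivial (X 0)]

include R in
/-- The heart of the proof: a clean linear resolution with these extension properties is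
impossible. -/
theorem core (h3 : Cube0 A)
    (hS : ∀ (T : Type) [AddCommGroup T] [Module A T] [IsSimpleModule A T],
      ∃ i, Nonempty (T ≃ₗ[A] S i))
    (q : ∀ i, Q i →ₗ[A] S i) (hq : ∀ i, Function.Surjective (q i))
    (hqk : ∀ i, LinearMap.ker (q i) ≤ rad A (Q i))
    (g : ∀ m, P m →ₗ[A] X m) (inc : ∀ m, X (m + 1) →ₗ[A] P m)
    (hg : ∀ m, Function.Surjective (g m)) (hgk : ∀ m, LinearMap.ker (g m) ≤ rad A (P m))
    (hex : ∀ m, Function.Exact (inc m) (g m))
    (clean : ∀ m, ∀ x ∈ rad2 A (P m), ∃ y ∈ rad A (X (m + 1)), inc m y = x)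
    (hX0 : rad2 A (X 0) = ⊥)
    (hA : ∀ m i, ∀ f : X m →ₗ[A] Q i, ∀ x, f x ∈ rad A (Q i))
    (hextQ : ∀ m i, ∀ f : X (m + 1) →ₗ[A] Q i, ∃ f' : P m →ₗ[A] Q i, f' ∘ₗ inc m = f)
    (hext0 : ∀ m, ∀ f : X (m + 1) →ₗ[A] X 0, ∃ f' : P m →ₗ[A] X 0, f' ∘ₗ inc m = f) :
    False := by
  have hinc : ∀ m y, inc m y ∈ rad A (P m) := fun m y =>
    hgk m (LinearMap.mem_ker.2 ((hex m).apply_apply_eq_zero y))
  have hSrad : ∀ i, rad A (S i) = ⊥ := fun i => rad_eq_bot_of_semisimple
  have hker : ∀ i, rad A (Q i) = LinearMap.ker (q i) := fun i =>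
    le_antisymm (fun x hx => by
      have := apply_mem_rad (q i) hx
      rwa [hSrad, Submodule.mem_bot] at this) (hqk i)
  have fin1 : ∀ i, Module.Finite A (rad A (Q i)) := fun i =>
    Module.Finite.iff_fg.2 (IsNoetherian.noetherian _)
  have fin2 : ∀ i, Module.Finite A (rad2 A (Q i)) := fun i =>
    Module.Finite.iff_fg.2 (IsNoetherian.noetherian _)
  have fin3 : ∀ i, Module.Finite R (rad A (Q i)) := fun i =>
    Module.Finite.of_injective ((rad A (Q i)).subtype.restrictScalars R)
      (Submodule.subtype_injective _)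
  have fin4 : ∀ i, Module.Finite R (rad2 A (Q i)) := fun i =>
    Module.Finite.of_injective ((rad2 A (Q i)).subtype.restrictScalars R)
      (Submodule.subtype_injective _)
  have fin5 : Module.Finite A (rad A (X 0)) := Module.Finite.iff_fg.2 (IsNoetherian.noetherian _)
  have fin6 : Module.Finite R (rad A (X 0)) :=
    Module.Finite.of_injective ((rad A (X 0)).subtype.restrictScalars R)
      (Submodule.subtype_injective _)
  choose D hD using fun i => lin_all (R := R) (S := S) (Y := rad A (Q i)) h3 hS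
  choose G hG using fun i => lin_all (R := R) (S := S) (Y := rad2 A (Q i)) h3 hS
  obtain ⟨B, hB⟩ := lin_all (R := R) (S := S) (Y := X 0) h3 hS
  obtain ⟨b, hb⟩ := lin_all (R := R) (S := S) (Y := rad A (X 0)) h3 hS
  -- the recursion
  let z : ℕ → ι → ℕ := fun m i => hl R A (P m) (S i)
  have hrec : ∀ m i, z m i + ∑ j, G i j * z (m + 1) j + ∑ j, G i j * z (m + 2) j
      = ∑ j, D i j * z (m + 1) j := by
    intro m i
    have e1 : ∀ k, hl R A (P k) (rad A (Q i))
        = hl R A (X k) (Q i) + hl R A (X (k + 1)) (rad2 A (Q i)) := fun k =>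
      hl_layer h3 (hqk i) (g k) (inc k) (hg k) (hex k) (hinc k) (clean k) (hA k i) (hextQ k i)
    have e2 : hl R A (P m) (Q i) = hl R A (X m) (Q i) + hl R A (X (m + 1)) (Q i) :=
      hl_ses (g m) (inc m) (hg m) (hex m) (hextQ m i)
    have e3 : hl R A (P m) (Q i) = hl R A (P m) (rad A (Q i)) + hl R A (P m) (S i) :=
      hl_exact_right (rad A (Q i)).subtype (q i) (Submodule.subtype_injective _) (hq i)
        (by rw [hker]; exact LinearMap.exact_subtype_ker_map (q i))
    have e4 : ∀ k, hl R A (X k) (rad2 A (Q i)) = hl R A (P k) (rad2 A (Q i)) := fun k =>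
      hl_cover (g k) (hg k) (hgk k)
        (rad_submodule_eq_bot _ fun c hc x hx => smul_rad2 h3 hc hx)
    have a1 := e1 m
    have a2 := e1 (m + 1)
    rw [e4] at a1 a2
    rw [hD i (P (m + 1)) inferInstance inferInstance] at a2
    rw [hG i (P (m + 1)) inferInstance inferInstance] at a1
    rw [hG i (P (m + 1 + 1)) inferInstance inferInstance] at a2
    show hl R A (P m) (S i) + _ + _ = _
    simp only [z]
    rw [show m + 1 + 1 = m + 2 from rfl] at a2
    omega
  -- the functional
  have hrad0 : rad A (rad A (X 0)) = ⊥ :=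
    rad_submodule_eq_bot _ fun c hc x hx => (Submodule.mem_bot A).1
      (hX0 ▸ Submodule.smul_mem_smul hc hx)
  have hη : ∀ m, hl R A (X m) (rad A (X 0)) = hl R A (P m) (rad A (X 0)) := fun m =>
    hl_cover (g m) (hg m) (hgk m) hrad0
  have hin : ∀ m, hl R A (X (m + 1)) (X 0) = hl R A (P (m + 1)) (rad A (X 0)) := by
    intro m
    rw [← hη]
    have hbij : Function.Bijective
        (postR (R := R) (X := X (m + 1)) (rad A (X 0)).subtype) := by
      constructor
      · intro u v huv
        exact LinearMap.ext fun x => Subtype.ext (LinearMap.congr_fun huv x)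
      · intro f
        obtain ⟨f', rfl⟩ := hext0 m f
        exact ⟨(f' ∘ₗ inc m).codRestrict _ fun y => apply_mem_rad f' (hinc m y),
          LinearMap.ext fun _ => rfl⟩
    exact (congrArg ENat.toNat (LinearEquiv.ofBijective _ hbij).length_eq).symm
  have hlt : hl R A (P 0) (rad A (X 0)) < hl R A (X 0) (X 0) := by
    rw [← hη]
    haveI := hom_finite R A (X 0) (X 0)
    haveI := hom_finite R A (X 0) (rad A (X 0))
    let f := postR (R := R) (X := X 0) (rad A (X 0)).subtype
    have hf : Function.Injective f := fun u v huv =>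
      LinearMap.ext fun x => Subtype.ext (LinearMap.congr_fun huv x)
    have hne : LinearMap.range f ≠ ⊤ := by
      intro e
      obtain ⟨u, hu⟩ := LinearMap.range_eq_top.1 e LinearMap.id
      have htop : (⊥ : Submodule A (X 0)) ⊔ rad A (X 0) = ⊤ := by
        rw [bot_sup_eq, eq_top_iff]
        intro x _
        have hx : ((u x : rad A (X 0)) : X 0) = x := LinearMap.congr_fun hu x
        exact hx ▸ (u x).2
      exact bot_ne_top (eq_top_of_sup_rad h3 htop)
    have h1 := Submodule.length_lt hne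
    have h2 := (LinearEquiv.ofInjective f hf).length_eq
    rw [← h2] at h1
    unfold hl
    have ht : Module.length R (X 0 →ₗ[A] X 0) ≠ ⊤ := Module.length_ne_top
    rw [← ENat.coe_toNat ht, ← ENat.coe_toNat h1.ne_top] at h1
    exact Nat.cast_lt.1 h1
  have hphi : ∀ m, hl R A (P m) (X 0) = hl R A (X m) (X 0) + hl R A (X (m + 1)) (X 0) := fun m =>
    hl_ses (g m) (inc m) (hg m) (hex m) (hext0 m)
  -- rational linear algebra
  let L : (ι → ℕ) → ((ι → ℚ) →ₗ[ℚ] ℚ) := fun w => ∑ j, (w j : ℚ) • LinearMap.proj j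
  have hL : ∀ w x, L w x = ∑ j, (w j : ℚ) * x j := fun w x => by simp [L]
  let K : (ι → ℚ) × (ι → ℚ) →ₗ[ℚ] (ι → ℚ) × (ι → ℚ) :=
    (LinearMap.pi fun i => (L (D i) - L (G i)) ∘ₗ LinearMap.fst ℚ _ _
      - L (G i) ∘ₗ LinearMap.snd ℚ _ _).prod (LinearMap.fst ℚ _ _)
  let φ : (ι → ℚ) × (ι → ℚ) →ₗ[ℚ] ℚ :=
    (L B - L b) ∘ₗ LinearMap.fst ℚ _ _ - L b ∘ₗ LinearMap.snd ℚ _ _
  let v : ℕ → (ι → ℚ) × (ι → ℚ) := fun m => (fun i => (z m i : ℚ), fun i => (z (m + 1) i : ℚ))
  have hK : ∀ m, K (v (m + 1)) = v m := by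
    intro m
    refine Prod.ext (funext fun i => ?_) rfl
    show (L (D i) - L (G i)) (v (m + 1)).1 - L (G i) (v (m + 1)).2 = (z m i : ℚ)
    simp only [LinearMap.sub_apply, hL, v]
    have := congrArg (Nat.cast : ℕ → ℚ) (hrec m i)
    push_cast at this
    linarith
  have hval : ∀ m, φ (v m) = (hl R A (P m) (X 0) : ℚ) - hl R A (P m) (rad A (X 0))
      - hl R A (P (m + 1)) (rad A (X 0)) := by
    intro m
    show (L B - L b) (v m).1 - L b (v m).2 = _
    rw [hB (P m) inferInstance inferInstance, hb (P m) inferInstance inferInstance,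
      hb (P (m + 1)) inferInstance inferInstance]
    push_cast
    simp only [LinearMap.sub_apply, hL, v, z]
  have hzero : ∀ m, φ (v (m + 1)) = 0 := by
    intro m
    rw [hval, hphi (m + 1), hin, hin]
    push_cast
    ring
  have := backward_vanish K v hK φ hzero
  rw [hval, hphi 0, hin] at this
  push_cast at this
  have h4 : (hl R A (P 0) (rad A (X 0)) : ℚ) < hl R A (X 0) (X 0) := by exact_mod_cast hlt
  linarith

end Vale.Agent.P195
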