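import Vale.Agent.P195.Radical

/-!
Elementary facts about vanishing of `Ext` between modules.
-/

namespace Vale.Agent.P195

open CategoryTheory Abelian

variable {A : Type} [Ring A]

/-- `Ext` in degree `n` from `M` to `N` vanishes. -/
def EV (A : Type) [Ring A] (M N : Type) [AddCommGroup M] [Module A M] [AddCommGroup N]
    [Module A N] (n : ℕ) : Prop :=
  Subsingleton (Ext (ModuleCat.of A M) (ModuleCat.of A N) n)

variable {M N K P X Y : Type} [AddCommGroup M] [Module A M] [AddCommGroup N] [Module A N]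
  [AddCommGroup K] [Module A K] [AddCommGroup P] [Module A P] [AddCommGroup X] [Module A X]
  [AddCommGroup Y] [Module A Y]

theorem ev_zero {n : ℕ} (h : EV A M N n) (x : Ext (ModuleCat.of A M) (ModuleCat.of A N) n) :
    x = 0 := @Subsingleton.elim _ h x 0

/-- Retracts in the first variable. -/
theorem ev_retract_left {n : ℕ} (h : EV A M Y n) (i : N →ₗ[A] M) (r : M →ₗ[A] N)
    (hri : ∀ x, r (i x) = x) : EV A N Y n := by
  refine subsingleton_of_forall_eq 0 fun x => ?_
  have he : ModuleCat.ofHom i ≫ ModuleCat.ofHom r = 𝟙 (ModuleCat.of A N) := by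
    ext y; exact hri y
  have hx : x = (Ext.mk₀ (ModuleCat.ofHom i)).comp
      ((Ext.mk₀ (ModuleCat.ofHom r)).comp x (zero_add n)) (zero_add n) := by
    rw [Ext.mk₀_comp_mk₀_assoc, he, Ext.mk₀_id_comp]
  rw [hx, ev_zero h ((Ext.mk₀ (ModuleCat.ofHom r)).comp x (zero_add n)), Ext.comp_zero]

/-- Retracts in the second variable. -/
theorem ev_retract_right {n : ℕ} (h : EV A X M n) (i : N →ₗ[A] M) (r : M →ₗ[A] N)
    (hri : ∀ x, r (i x) = x) : EV A X N n := by
  refine subsingleton_of_forall_eq 0 fun x => ?_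
  have he : ModuleCat.ofHom i ≫ ModuleCat.ofHom r = 𝟙 (ModuleCat.of A N) := by
    ext y; exact hri y
  have hx : x = (x.comp (Ext.mk₀ (ModuleCat.ofHom i)) (add_zero n)).comp
      (Ext.mk₀ (ModuleCat.ofHom r)) (add_zero n) := by
    rw [Ext.comp_assoc_of_third_deg_zero, Ext.mk₀_comp_mk₀, he, Ext.comp_mk₀_id]
  rw [hx, ev_zero h (x.comp (Ext.mk₀ (ModuleCat.ofHom i)) (add_zero n)), Ext.zero_comp]

theorem ev_pi {n k : ℕ} (h : EV A X A n) : EV A X (Fin k → A) n := by
  refine subsingleton_of_forall_eq 0 fun x => ?_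
  let f : Fin k → (ModuleCat.of A (Fin k → A) ⟶ ModuleCat.of A (Fin k → A)) := fun i =>
    ModuleCat.ofHom (LinearMap.proj i) ≫ ModuleCat.ofHom (LinearMap.single A (fun _ => A) i)
  have he : (∑ i, f i) = 𝟙 _ := by
    ext1
    refine LinearMap.ext fun v => funext fun j => ?_
    simp [f, ModuleCat.hom_sum, Finset.sum_apply, Pi.single_apply]
  have hx : x = x.comp (Ext.mk₀ (∑ i, f i)) (add_zero n) := by rw [he, Ext.comp_mk₀_id]
  rw [hx, Ext.mk₀_sum, Ext.comp_sum]
  refine Finset.sum_eq_zero fun i _ => ?_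
  simp only [f]
  rw [← Ext.mk₀_comp_mk₀, ← Ext.comp_assoc_of_third_deg_zero,
    ev_zero h (x.comp (Ext.mk₀ (ModuleCat.ofHom (LinearMap.proj i))) (add_zero n)), Ext.zero_comp]

/-- Vanishing against the ring gives vanishing against finite projective modules. -/
theorem ev_projective {n : ℕ} (h : EV A X A n) [Module.Projective A P] [Module.Finite A P] :
    EV A X P n := by
  obtain ⟨k, p, hp⟩ := Module.Finite.exists_fin' A P
  obtain ⟨i, hi⟩ := Module.projective_lifting_property p LinearMap.id hp
  exact ev_retract_right (ev_pi (k := k) h) i p fun x => LinearMap.congr_fun hi x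

variable (g : P →ₗ[A] X) (inc : K →ₗ[A] P)

/-- The short complex of `inc` and `g`. -/
def sesOf (hex : Function.Exact inc g) : ShortComplex (ModuleCat A) :=
  ShortComplex.mk (ModuleCat.ofHom inc) (ModuleCat.ofHom g) (by ext x; exact hex.apply_apply_eq_zero x)

variable {g inc}

theorem sesOf_shortExact (hex : Function.Exact inc g) (hi : Function.Injective inc)
    (hg : Function.Surjective g) : (sesOf g inc hex).ShortExact where
  exact := (ShortComplex.ShortExact.moduleCat_exact_iff_function_exact _).2 hex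
  mono_f := (ModuleCat.mono_iff_injective _).2 hi
  epi_g := (ModuleCat.epi_iff_surjective _).2 hg

/-- Maps extend along the kernel when the first `Ext` vanishes. -/
theorem ev_extend (hex : Function.Exact inc g) (hi : Function.Injective inc)
    (hg : Function.Surjective g) (h : EV A X Y 1) (f : K →ₗ[A] Y) :
    ∃ f' : P →ₗ[A] Y, f' ∘ₗ inc = f := by
  have hS := sesOf_shortExact hex hi hg
  obtain ⟨x, hx⟩ := Ext.contravariant_sequence_exact₁ hS (ModuleCat.of A Y)
    (Ext.mk₀ (ModuleCat.ofHom f)) (add_zero 1) (ev_zero h _)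
  obtain ⟨f', rfl⟩ := Ext.homEquiv₀.symm.surjective x
  rw [Ext.homEquiv₀_symm_apply, Ext.mk₀_comp_mk₀] at hx
  have := (Ext.mk₀_bijective _ _).1 hx
  exact ⟨f'.hom, congrArg ModuleCat.Hom.hom this⟩

/-- Dimension shifting. -/
theorem ev_shift (hex : Function.Exact inc g) (hi : Function.Injective inc)
    (hg : Function.Surjective g) [Module.Projective A P] {n : ℕ}
    (h : EV A X Y (n + 2)) : EV A K Y (n + 1) := by
  refine subsingleton_of_forall_eq 0 fun x => ?_
  have hS := sesOf_shortExact hex hi hg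
  haveI : CategoryTheory.Projective (ModuleCat.of A P) :=
    ModuleCat.projective_of_categoryTheory_projective _
  obtain ⟨y, rfl⟩ := Ext.contravariant_sequence_exact₁ hS (ModuleCat.of A Y) x
    (show 1 + (n + 1) = n + 2 by omega) (ev_zero h _)
  rw [show y = 0 from Ext.eq_zero_of_projective (P := ModuleCat.of A P) y]
  exact (Ext.mk₀ (sesOf g inc hex).f).comp_zero _ _ _ _

/-- The self-extensions of the kernel vanish. -/
theorem ev_kernel_self (hex : Function.Exact inc g) (hi : Function.Injective inc)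
    (hg : Function.Surjective g) [Module.Projective A P] [Module.Finite A P]
    (hX : ∀ i, 1 ≤ i → EV A X X i) (hA : ∀ i, 1 ≤ i → EV A X A i) (n : ℕ) :
    EV A K K (n + 1) := by
  refine subsingleton_of_forall_eq 0 fun x => ?_
  have hS := sesOf_shortExact hex hi hg
  have hKP : EV A K P (n + 1) := ev_projective (ev_shift hex hi hg (hA _ (by omega)))
  obtain ⟨y, hy⟩ := Ext.covariant_sequence_exact₁ (ModuleCat.of A K) hS x (ev_zero hKP _) rfl
  rw [← hy]
  cases n with
  | zero =>
    obtain ⟨f, rfl⟩ := Ext.homEquiv₀.symm.surjective y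
    obtain ⟨f', hf'⟩ := ev_extend hex hi hg (hX 1 le_rfl) f.hom
    obtain ⟨l, hl⟩ := Module.projective_lifting_property g f' hg
    let l' : ModuleCat.of A K ⟶ (sesOf g inc hex).X₂ := ModuleCat.ofHom (l ∘ₗ inc)
    have he : f = l' ≫ (sesOf g inc hex).g := by
      ext x
      exact ((LinearMap.congr_fun hf' x).symm).trans (LinearMap.congr_fun hl (inc x)).symm
    rw [Ext.homEquiv₀_symm_apply, he, ← Ext.mk₀_comp_mk₀,
      Ext.comp_assoc_of_second_deg_zero, hS.comp_extClass]
    exact (Ext.mk₀ l').comp_zero _ _ _ _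
  | succ j =>
    have hKX : EV A K X (j + 1) := ev_shift hex hi hg (hX _ (by omega))
    have hy0 : y = 0 := ev_zero hKX y
    rw [hy0, Ext.zero_comp]
    rfl

end Vale.Agent.P195
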