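import Vale.Agent.P195.Radical

/-!
Lengths of modules of homomorphisms.
-/

namespace Vale.Agent.P195

variable (R A : Type) [CommRing R] [IsArtinianRing R] [Ring A] [Algebra R A]
variable (X Y : Type) [AddCommGroup X] [Module A X]
  [AddCommGroup Y] [Module A Y] [Module R Y] [IsScalarTower R A Y]

/-- The length over `R` of the homomorphisms from `X` to `Y`. -/
noncomputable def hl : ℕ := (Module.length R (X →ₗ[A] Y)).toNat

theorem hom_finite [Module.Finite A X] [Module.Finite R Y] : Module.Finite R (X →ₗ[A] Y) := by
  obtain ⟨n, s, hs⟩ := Module.Finite.exists_fin (R := A) (M := X)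
  let ev : (X →ₗ[A] Y) →ₗ[R] (Fin n → Y) :=
    { toFun := fun f i => f (s i)
      map_add' := fun _ _ => rfl
      map_smul' := fun _ _ => rfl }
  refine Module.Finite.of_injective ev fun f g hfg => LinearMap.ext_on hs ?_
  rintro _ ⟨i, rfl⟩
  exact congrFun hfg i

variable {R A X Y}
variable {Z : Type} [AddCommGroup Z] [Module A Z] [Module R Z] [IsScalarTower R A Z]
variable {W : Type} [AddCommGroup W] [Module A W]

/-- Composition on the left, linearly in `R`. -/
def postR (f : Y →ₗ[A] Z) : (X →ₗ[A] Y) →ₗ[R] (X →ₗ[A] Z) where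
  toFun h := f ∘ₗ h
  map_add' a b := LinearMap.ext fun x => map_add f (a x) (b x)
  map_smul' r a := LinearMap.ext fun x => f.map_smul_of_tower r (a x)

/-- Composition on the right, linearly in `R`. -/
def preR (f : W →ₗ[A] X) : (X →ₗ[A] Y) →ₗ[R] (W →ₗ[A] Y) where
  toFun h := h ∘ₗ f
  map_add' _ _ := LinearMap.ext fun _ => rfl
  map_smul' _ _ := LinearMap.ext fun _ => rfl

theorem len_exact {U V T : Type} [AddCommGroup U] [Module R U] [AddCommGroup V] [Module R V]
    [Module.Finite R V] [AddCommGroup T] [Module R T] (f : U →ₗ[R] V) (g : V →ₗ[R] T)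
    (hf : Function.Injective f) (hg : Function.Surjective g) (H : Function.Exact f g) :
    (Module.length R V).toNat = (Module.length R U).toNat + (Module.length R T).toNat := by
  have h := Module.length_eq_add_of_exact f g hf hg H
  have hV : Module.length R V ≠ ⊤ := Module.length_ne_top
  rw [h] at hV
  rw [h, ENat.toNat_add (fun e => hV (by rw [e, top_add])) (fun e => hV (by rw [e, add_top]))]

theorem hl_congr (e : Y ≃ₗ[A] Z) : hl R A X Y = hl R A X Z := by
  have : Function.Bijective (postR (R := R) (X := X) e.toLinearMap) := by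
    constructor
    · intro a b hab
      exact LinearMap.ext fun x => e.injective (LinearMap.congr_fun hab x)
    · intro b
      exact ⟨e.symm.toLinearMap ∘ₗ b, LinearMap.ext fun x => e.apply_symm_apply _⟩
  exact congrArg ENat.toNat (LinearEquiv.ofBijective _ this).length_eq

theorem hl_pi {n : ℕ} (V : Fin n → Type) [∀ j, AddCommGroup (V j)] [∀ j, Module A (V j)]
    [∀ j, Module R (V j)] [∀ j, IsScalarTower R A (V j)] [Module.Finite A X]
    [∀ j, Module.Finite R (V j)] : hl R A X (∀ j, V j) = ∑ j, hl R A X (V j) := by
  let e : (X →ₗ[A] ∀ j, V j) ≃ₗ[R] (∀ j, X →ₗ[A] V j) :=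
    { toFun := fun h j => LinearMap.proj j ∘ₗ h
      invFun := fun f => LinearMap.pi f
      map_add' := fun _ _ => rfl
      map_smul' := fun _ _ => rfl
      left_inv := fun _ => rfl
      right_inv := fun _ => rfl }
  unfold hl
  rw [e.length_eq, Module.length_pi_of_fintype]
  refine ENat.toNat_sum fun j _ => ?_
  haveI := hom_finite R A X (V j)
  exact Module.length_ne_top

/-- A surjection with kernel in the radical induces an isomorphism of maps into a module
killed by the radical. -/
theorem hl_cover {P : Type} [AddCommGroup P] [Module A P] (g : P →ₗ[A] X)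
    (hg : Function.Surjective g) (hk : LinearMap.ker g ≤ rad A P) (hY : rad A Y = ⊥) :
    hl R A X Y = hl R A P Y := by
  have : Function.Bijective (preR (R := R) (Y := Y) g) := by
    constructor
    · intro a b hab
      refine LinearMap.ext fun x => ?_
      obtain ⟨p, rfl⟩ := hg x
      exact LinearMap.congr_fun hab p
    · intro f
      have hker : LinearMap.ker g ≤ LinearMap.ker f := fun p hp => by
        have := apply_mem_rad f (hk hp)
        rwa [hY, Submodule.mem_bot] at this
      refine ⟨(LinearMap.ker g).liftQ f hker ∘ₗ (g.quotKerEquivOfSurjective hg).symm,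
        LinearMap.ext fun p => ?_⟩
      have h2 : (g.quotKerEquivOfSurjective hg).symm (g p) = Submodule.Quotient.mk p := by
        rw [LinearEquiv.symm_apply_eq]; rfl
      show (LinearMap.ker g).liftQ f hker ((g.quotKerEquivOfSurjective hg).symm (g p)) = f p
      rw [h2]; rfl
  exact congrArg ENat.toNat (LinearEquiv.ofBijective _ this).length_eq

/-- For a projective source, `hl` is additive in short exact sequences. -/
theorem hl_exact_right {T : Type} [AddCommGroup T] [Module A T] [Module R T] [IsScalarTower R A T]
    [Module.Projective A X] [Module.Finite A X] [Module.Finite R Z]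
    (f : Y →ₗ[A] Z) (g : Z →ₗ[A] T) (hf : Function.Injective f) (hg : Function.Surjective g)
    (H : Function.Exact f g) : hl R A X Z = hl R A X Y + hl R A X T := by
  haveI := hom_finite R A X Z
  refine len_exact (postR f) (postR g) ?_ ?_ ?_
  · intro a b hab
    exact LinearMap.ext fun x => hf (LinearMap.congr_fun hab x)
  · intro b
    obtain ⟨a, ha⟩ := Module.projective_lifting_property g b hg
    exact ⟨a, ha⟩
  · intro b
    constructor
    · intro hb
      have hb' : ∀ x, b x ∈ LinearMap.range f := fun x => (H (b x)).1 (LinearMap.congr_fun hb x)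
      refine ⟨(LinearEquiv.ofInjective f hf).symm.toLinearMap ∘ₗ b.codRestrict _ hb', ?_⟩
      refine LinearMap.ext fun x => ?_
      exact congrArg Subtype.val ((LinearEquiv.ofInjective f hf).apply_symm_apply ⟨b x, hb' x⟩)
    · rintro ⟨a, rfl⟩
      exact LinearMap.ext fun x => H.apply_apply_eq_zero (a x)

variable (R A)

/-- `hl` into `W` is a natural combination of the `hl` into the simple modules `S i`. -/
def Lin {ι : Type} [Fintype ι] (S : ι → Type) [∀ i, AddCommGroup (S i)] [∀ i, Module A (S i)]
    [∀ i, Module R (S i)] [∀ i, IsScalarTower R A (S i)]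
    (W : Type) [AddCommGroup W] [Module A W] [Module R W] [IsScalarTower R A W] : Prop :=
  ∃ w : ι → ℕ, ∀ (P : Type) [AddCommGroup P] [Module A P],
    Module.Projective A P → Module.Finite A P → hl R A P W = ∑ i, w i * hl R A P (S i)

variable {R A}
variable [IsArtinianRing A]
variable {ι : Type} [Fintype ι] {S : ι → Type} [∀ i, AddCommGroup (S i)] [∀ i, Module A (S i)]
    [∀ i, Module R (S i)] [∀ i, IsScalarTower R A (S i)] [∀ i, Module.Finite R (S i)]

theorem lin_semisimple
    (hS : ∀ (T : Type) [AddCommGroup T] [Module A T] [IsSimpleModule A T],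
      ∃ i, Nonempty (T ≃ₗ[A] S i))
    [Module.Finite A Y] [Module.Finite R Y] (hY : rad A Y = ⊥) : Lin R A S Y := by
  classical
  haveI := isSemisimple_of_rad hY
  obtain ⟨n, V, e, hV⟩ := IsSemisimpleModule.exists_linearEquiv_fin_dfinsupp A Y
  have : ∀ j, ∃ i, Nonempty (V j ≃ₗ[A] S i) := fun j => by haveI := hV j; exact hS (V j)
  choose σ hσ using this
  let e' : Y ≃ₗ[A] (∀ j, S (σ j)) :=
    e.trans ((DFinsupp.linearEquivFunOnFintype (R := A)).trans
      (LinearEquiv.piCongrRight fun j => (hσ j).some))
  refine ⟨fun i => (Finset.univ.filter fun j => σ j = i).card, fun P _ _ _ _ => ?_⟩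
  rw [hl_congr e', hl_pi, ← Finset.sum_fiberwise Finset.univ σ]
  refine Finset.sum_congr rfl fun i _ => ?_
  rw [Finset.sum_congr rfl (g := fun _ => hl R A P (S i)), Finset.sum_const, smul_eq_mul]
  intro j hj
  rw [(Finset.mem_filter.1 hj).2]

omit [IsArtinianRing A] [∀ i, Module.Finite R (S i)] in
theorem lin_exact {T : Type} [AddCommGroup T] [Module A T] [Module R T] [IsScalarTower R A T]
    [Module.Finite R Z] (f : Y →ₗ[A] Z) (g : Z →ₗ[A] T) (hf : Function.Injective f)
    (hg : Function.Surjective g) (H : Function.Exact f g)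
    (hY : Lin R A S Y) (hT : Lin R A S T) : Lin R A S Z := by
  obtain ⟨u, hu⟩ := hY
  obtain ⟨v, hv⟩ := hT
  refine ⟨fun i => u i + v i, fun P _ _ hP hf' => ?_⟩
  rw [hl_exact_right f g hf hg H, hu P hP hf', hv P hP hf', ← Finset.sum_add_distrib]
  exact Finset.sum_congr rfl fun i _ => (add_mul _ _ _).symm

/-- Every finite module gives a linear functional, by devissage along the radical. -/
theorem lin_all (h : Cube0 A)
    (hS : ∀ (T : Type) [AddCommGroup T] [Module A T] [IsSimpleModule A T],
      ∃ i, Nonempty (T ≃ₗ[A] S i))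
    [Module.Finite A Y] [Module.Finite R Y] : Lin R A S Y := by
  have fA : ∀ N : Submodule A Y, Module.Finite A N := fun N =>
    Module.Finite.iff_fg.2 (IsNoetherian.noetherian N)
  have fR : ∀ N : Submodule A Y, Module.Finite R N := fun N =>
    Module.Finite.of_injective (N.subtype.restrictScalars R) N.subtype_injective
  haveI := fA
  haveI := fR
  have h1 : Lin R A S (rad A Y) := by
    have fA' : Module.Finite A (rad A (rad A Y)) :=
      Module.Finite.iff_fg.2 (IsNoetherian.noetherian _)
    have fR' : Module.Finite R (rad A (rad A Y)) :=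
      Module.Finite.of_injective ((rad A (rad A Y)).subtype.restrictScalars R)
        (Submodule.subtype_injective _)
    refine lin_exact (rad A (rad A Y)).subtype (rad A (rad A Y)).mkQ
      (Submodule.subtype_injective _) (Submodule.mkQ_surjective _)
      (LinearMap.exact_subtype_mkQ _) (lin_semisimple hS ?_) (lin_semisimple hS rad_quotient_rad)
    refine rad_submodule_eq_bot _ fun a ha x hx => Subtype.ext ?_
    rw [Submodule.coe_smul, ZeroMemClass.coe_zero]
    exact smul_rad2 h ha (apply_mem_rad2_of_rad (rad A Y).subtype (fun z => z.2) hx)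
  exact lin_exact (rad A Y).subtype (rad A Y).mkQ (Submodule.subtype_injective _)
    (Submodule.mkQ_surjective _) (LinearMap.exact_subtype_mkQ _) h1
    (lin_semisimple hS rad_quotient_rad)

end Vale.Agent.P195
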