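import Vale.Agent.P195.Core
import Vale.Agent.P195.ExtLemmas

/-!
The Auslander-Reiten conjecture for Artin algebras with radical cube zero.
-/

namespace Vale.Agent.P195

open CategoryTheory Abelian

variable {A : Type} [Ring A]

/-- A submodule of a finite free module. -/
abbrev Pt (A : Type) [Ring A] : Type := Σ n : ℕ, Submodule A (Fin n → A)

theorem pt_finite [IsArtinianRing A] (s : Pt A) : Module.Finite A s.2 :=
  Module.Finite.iff_fg.2 (IsNoetherian.noetherian s.2)

/-- The chosen cover. -/
noncomputable def covOf [IsArtinianRing A] (h : Cube0 A) (X : Type) [AddCommGroup X] [Module A X]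
    [Module.Finite A X] : Cover A X :=
  (exists_cover h).some

/-- The kernel of a cover, as a submodule of a free module. -/
def kerPt {X : Type} [AddCommGroup X] [Module A X] (c : Cover A X) : Pt A :=
  ⟨c.n, (LinearMap.ker c.g).map c.P.subtype⟩

/-- The inclusion of the kernel in the cover. -/
def kerInc {X : Type} [AddCommGroup X] [Module A X] (c : Cover A X) : (kerPt c).2 →ₗ[A] c.P :=
  Submodule.inclusion (Submodule.map_subtype_le _ _)

theorem kerInc_injective {X : Type} [AddCommGroup X] [Module A X] (c : Cover A X) :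
    Function.Injective (kerInc c) :=
  Submodule.inclusion_injective _

theorem kerInc_exact {X : Type} [AddCommGroup X] [Module A X] (c : Cover A X) :
    Function.Exact (kerInc c) c.g := by
  intro p
  constructor
  · intro hp
    exact ⟨⟨p.1, p, LinearMap.mem_ker.2 hp, rfl⟩, rfl⟩
  · rintro ⟨⟨y, q, hq, rfl⟩, rfl⟩
    exact LinearMap.mem_ker.1 hq

theorem kerInc_mem_rad {X : Type} [AddCommGroup X] [Module A X] (c : Cover A X) (y : (kerPt c).2) :
    kerInc c y ∈ rad A c.P :=
  c.ker_le (LinearMap.mem_ker.2 ((kerInc_exact c).apply_apply_eq_zero y))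

theorem kerInc_rad2 (h : Cube0 A) {X : Type} [AddCommGroup X] [Module A X] (c : Cover A X) :
    rad2 A (kerPt c).2 = ⊥ := by
  rw [Submodule.eq_bot_iff]
  intro y hy
  apply kerInc_injective c
  rw [map_zero]
  exact apply_rad2_eq_zero h _ (kerInc_mem_rad c) hy

/-- The condition of Auslander and Reiten. -/
def SatAR (A : Type) [Ring A] (M : Type) [AddCommGroup M] [Module A M] : Prop :=
  ∀ i, 1 ≤ i → EV A M M i ∧ EV A M A i

theorem satAR_kerPt {X : Type} [AddCommGroup X] [Module A X] (c : Cover A X) (hX : SatAR A X) :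
    SatAR A (kerPt c).2 := by
  haveI := c.proj
  haveI := c.fin
  intro i hi
  obtain ⟨n, rfl⟩ : ∃ n, i = n + 1 := ⟨i - 1, by omega⟩
  exact ⟨ev_kernel_self (kerInc_exact c) (kerInc_injective c) c.surj
      (fun j hj => (hX j hj).1) (fun j hj => (hX j hj).2) n,
    ev_shift (kerInc_exact c) (kerInc_injective c) c.surj (hX _ (by omega)).2⟩

theorem ev_kerPt {X Y : Type} [AddCommGroup X] [Module A X] [AddCommGroup Y] [Module A Y]
    (c : Cover A X) {n : ℕ} (h : EV A X Y (n + 2)) : EV A (kerPt c).2 Y (n + 1) := by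
  haveI := c.proj
  exact ev_shift (kerInc_exact c) (kerInc_injective c) c.surj h

theorem kerPt_maps_rad {X Q : Type} [AddCommGroup X] [Module A X] [AddCommGroup Q] [Module A Q]
    [Module.Projective A Q] [Module.Finite A Q]
    (c : Cover A X) (hX : SatAR A X) (f : (kerPt c).2 →ₗ[A] Q) (x : (kerPt c).2) :
    f x ∈ rad A Q := by
  obtain ⟨f', rfl⟩ := ev_extend (kerInc_exact c) (kerInc_injective c) c.surj
    (ev_projective (hX 1 le_rfl).2) f
  exact apply_mem_rad f' (kerInc_mem_rad c x)

theorem projective_of_kerPt_subsingleton {X : Type} [AddCommGroup X] [Module A X]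
    (c : Cover A X) (h : Subsingleton (kerPt c).2) : Module.Projective A X := by
  haveI := c.proj
  refine Module.Projective.of_equiv (LinearEquiv.ofBijective c.g ⟨?_, c.surj⟩)
  rw [← LinearMap.ker_eq_bot, Submodule.eq_bot_iff]
  intro p hp
  obtain ⟨y, rfl⟩ := ((kerInc_exact c) p).1 (LinearMap.mem_ker.1 hp)
  rw [Subsingleton.elim y 0, map_zero]

variable [IsArtinianRing A]

/-- An element of the second radical outside the radical of a submodule gives a simple summand. -/
theorem split_gen (h : Cube0 A) {K P : Type} [AddCommGroup K] [Module A K] [Module.Finite A K]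
    [AddCommGroup P] [Module A P] (inc : K →ₗ[A] P) (hinj : Function.Injective inc) (y : K)
    (hy : inc y ∈ rad2 A P) (hyr : y ∉ rad A K) :
    ∃ (U : Submodule A (K ⧸ rad A K)), IsSimpleModule A U ∧
      ∃ (i : U →ₗ[A] K) (r : K →ₗ[A] U),
        (∀ u, r (i u) = u) ∧ ∀ u, inc (i u) ∈ rad2 A P := by
  haveI := isSemisimple_of_rad (rad_quotient_rad (A := A) (X := K))
  let N : Submodule A K := (rad2 A P).comap inc
  haveI : Module.Finite A N := Module.Finite.iff_fg.2 (IsNoetherian.noetherian N)
  haveI hN : IsSemisimpleModule A N := isSemisimple_of_rad <| rad_submodule_eq_bot N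
    fun a ha z hz => hinj (by rw [map_smul, map_zero]; exact smul_rad2 h ha hz)
  let j : N →ₗ[A] K ⧸ rad A K := (rad A K).mkQ ∘ₗ N.subtype
  have hj : LinearMap.range j ≠ ⊥ := by
    intro e
    have h1 : j ⟨y, hy⟩ ∈ LinearMap.range j := ⟨_, rfl⟩
    rw [e, Submodule.mem_bot] at h1
    exact hyr ((Submodule.Quotient.mk_eq_zero _).1 h1)
  obtain ⟨U, hU, hUsimple⟩ := (IsSemisimpleModule.eq_bot_or_exists_simple_le
    (LinearMap.range j)).resolve_left hj
  obtain ⟨D, hD⟩ := exists_isCompl U
  let π : (K ⧸ rad A K) →ₗ[A] U := U.projectionOnto D hD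
  have hrs : Function.Surjective (π ∘ₗ j) := fun u => by
    obtain ⟨z, hz⟩ := hU u.2
    refine ⟨z, ?_⟩
    rw [LinearMap.comp_apply, hz]
    exact Submodule.projectionOnto_apply_left hD u
  obtain ⟨sec, hsec⟩ := IsSemisimpleModule.lifting_property (π ∘ₗ j) hrs LinearMap.id
  exact ⟨U, hUsimple, N.subtype ∘ₗ sec, π ∘ₗ (rad A K).mkQ,
    fun u => LinearMap.congr_fun hsec u, fun u => (sec u).2⟩

/-- If the radical layers of a syzygy step do not match, a simple module splits off. -/
theorem split_simple (h : Cube0 A) {X : Type} [AddCommGroup X] [Module A X] (c : Cover A X)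
    (hX : rad2 A X = ⊥) (hn : ¬ ∀ x ∈ rad2 A c.P, ∃ y ∈ rad A (kerPt c).2, kerInc c y = x) :
    ∃ (U : Submodule A ((kerPt c).2 ⧸ rad A (kerPt c).2)), IsSimpleModule A U ∧
      ∃ (i : U →ₗ[A] (kerPt c).2) (r : (kerPt c).2 →ₗ[A] U),
        (∀ u, r (i u) = u) ∧ ∀ u, kerInc c (i u) ∈ rad2 A c.P := by
  push Not at hn
  obtain ⟨x, hx, hxy⟩ := hn
  haveI := pt_finite (kerPt c)
  have hgx : c.g x = 0 := (Submodule.mem_bot A).1 (hX ▸ apply_mem_rad2 c.g hx)
  obtain ⟨y, rfl⟩ := ((kerInc_exact c) x).1 hgx
  exact split_gen h (kerInc c) (kerInc_injective c) y hx fun hy => hxy y hy rfl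

/-- Iterated syzygies. -/
noncomputable def syz (h : Cube0 A) (s₀ : Pt A) : ℕ → Pt A
  | 0 => s₀
  | m + 1 => haveI := pt_finite (syz h s₀ m); kerPt (covOf h (syz h s₀ m).2)

/-- The cover of an iterated syzygy. -/
noncomputable def syzCov (h : Cube0 A) (s₀ : Pt A) (m : ℕ) : Cover A (syz h s₀ m).2 :=
  haveI := pt_finite (syz h s₀ m); covOf h _

variable (R : Type) [CommRing R] [IsArtinianRing R] [Algebra R A] [Module.Finite R A]

omit [IsArtinianRing R] in
theorem finite_submodule_pi {n : ℕ} (N : Submodule A (Fin n → A)) [IsNoetherian R (Fin n → A)] :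
    Module.Finite R N :=
  Module.Finite.of_injective (N.subtype.restrictScalars R) N.subtype_injective

omit R in
theorem satAR_syz (h : Cube0 A) (s₀ : Pt A) (h0 : SatAR A s₀.2) :
    ∀ m, SatAR A (syz h s₀ m).2 := by
  intro m
  induction m with
  | zero => exact h0
  | succ m ihm => exact satAR_kerPt (syzCov h s₀ m) ihm

omit R in
theorem ev_syz (h : Cube0 A) (s₀ : Pt A) (Y : Type) [AddCommGroup Y] [Module A Y] :
    ∀ m j, EV A s₀.2 Y (j + 1 + m) → EV A (syz h s₀ m).2 Y (j + 1) := by
  intro m
  induction m with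
  | zero => exact fun _ hj => hj
  | succ m ihm =>
    intro j hj
    refine ev_kerPt (syzCov h s₀ m) (ihm (j + 1) ?_)
    rw [show j + 1 + 1 + m = j + 1 + (m + 1) by omega]
    exact hj

omit R in
theorem rad2_syz (h : Cube0 A) (s₀ : Pt A) (h0 : rad2 A s₀.2 = ⊥) :
    ∀ m, rad2 A (syz h s₀ m).2 = ⊥ := by
  intro m
  cases m with
  | zero => exact h0
  | succ m => exact kerInc_rad2 h (syzCov h s₀ m)

omit R in
/-- A simple module that splits off a syzygy below a cover is not orthogonal to what it covers. -/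
theorem not_ev_split {X U : Type} [AddCommGroup X] [Module A X] [AddCommGroup U] [Module A U]
    [IsSimpleModule A U] (c : Cover A X) (i : U →ₗ[A] (kerPt c).2) (r : (kerPt c).2 →ₗ[A] U)
    (hir : ∀ u, r (i u) = u) (hi2 : ∀ u, kerInc c (i u) ∈ rad2 A c.P) : ¬ EV A X U 1 := by
  intro hv
  obtain ⟨f', hf'⟩ := ev_extend (kerInc_exact c) (kerInc_injective c) c.surj hv r
  haveI := IsSimpleModule.nontrivial A U
  obtain ⟨u, hu⟩ := exists_ne (0 : U)
  have h2 := apply_mem_rad f' (rad2_le (hi2 u))
  rw [rad_eq_bot_of_semisimple (A := A) (X := U), Submodule.mem_bot] at h2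
  exact hu ((hir u).symm.trans ((LinearMap.congr_fun hf' (i u)).symm.trans h2))

omit R [IsArtinianRing A] in
/-- What a module does not see, a retract does not see. -/
theorem satAR_retract {X U : Type} [AddCommGroup X] [Module A X] [AddCommGroup U] [Module A U]
    (hX : SatAR A X) (i : U →ₗ[A] X) (r : X →ₗ[A] U) (hir : ∀ u, r (i u) = u) : SatAR A U :=
  fun q hq =>
    ⟨ev_retract_left (ev_retract_right (hX q hq).1 i r hir) i r hir,
      ev_retract_left (hX q hq).2 i r hir⟩

include R in
/-- The main theorem. -/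
theorem ar_rad_cube_zero (h : Cube0 A) :
    ∀ (M : Type) [AddCommGroup M] [Module A M], Module.Finite A M → SatAR A M →
      Module.Projective A M := by
  classical
  haveI := isSemisimple_quotient_jacobson (A := A)
  obtain ⟨n, S, e, hS⟩ := IsSemisimpleModule.exists_linearEquiv_fin_dfinsupp A (A ⧸ Ring.jacobson A)
  have hall : ∀ (T : Type) [AddCommGroup T] [Module A T] [IsSimpleModule A T],
      ∃ i, Nonempty (T ≃ₗ[A] S i) := by
    intro T _ _ _
    haveI := IsSimpleModule.nontrivial A T
    obtain ⟨t, ht⟩ := exists_ne (0 : T)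
    let φ : (A ⧸ Ring.jacobson A) →ₗ[A] T := (Ring.jacobson A).liftQ
      (LinearMap.toSpanSingleton A T t) fun a ha => LinearMap.mem_ker.2 <|
        Module.mem_annihilator.1 (IsSemisimpleModule.jacobson_le_annihilator A T ha) t
    let ψ : (Π₀ i, S i) →ₗ[A] T := φ ∘ₗ e.symm.toLinearMap
    by_contra hne
    push Not at hne
    have hψ : ψ = 0 := by
      refine DFinsupp.lhom_ext' fun i => ?_
      rw [LinearMap.zero_comp]
      by_contra hi
      haveI := hS i
      exact (hne i).false
        (LinearEquiv.ofBijective _ (LinearMap.bijective_of_ne_zero hi)).symm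
    have h1 : φ (Submodule.Quotient.mk 1) = 0 := by
      have := LinearMap.congr_fun hψ (e (Submodule.Quotient.mk 1))
      simpa [ψ] using this
    exact ht (by rwa [Submodule.liftQ_apply, LinearMap.toSpanSingleton_apply, one_smul] at h1)
  haveI : ∀ i, IsSimpleModule A (S i) := hS
  haveI : Module.Finite R (A ⧸ Ring.jacobson A) := inferInstance
  haveI : ∀ i, Module.Finite R (S i) := fun i =>
    Module.Finite.of_injective ((S i).subtype.restrictScalars R) (S i).subtype_injective
  haveI : ∀ i, Module.Finite A (S i) := fun i =>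
    Module.Finite.iff_fg.2 (IsNoetherian.noetherian _)
  let cQ : ∀ i, Cover A (S i) := fun i => covOf h (S i)
  -- the measure for the induction
  let Φ : ∀ (M : Type) [AddCommGroup M] [Module A M], Finset (Fin n) := fun M _ _ =>
    Finset.univ.filter fun i => ∃ k, 1 ≤ k ∧ ¬ EV A M (S i) k
  suffices H : ∀ k, ∀ (M : Type) [AddCommGroup M] [Module A M], (Φ M).card < k →
      Module.Finite A M → SatAR A M → Module.Projective A M from
    fun M _ _ hf hM => H _ M (Nat.lt_succ_self _) hf hM
  intro k
  induction k with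
  | zero => intro M _ _ hk; exact absurd hk (Nat.not_lt_zero _)
  | succ k ih =>
  intro M _ _ hk hfin hM
  let c := covOf h M
  rcases subsingleton_or_nontrivial (kerPt c).2 with h0 | h0
  · exact projective_of_kerPt_subsingleton c h0
  exfalso
  let s : ℕ → Pt A := syz h (kerPt c)
  let cs : ∀ m, Cover A (s m).2 := syzCov h (kerPt c)
  have hAR : ∀ m, SatAR A (s m).2 := satAR_syz h (kerPt c) (satAR_kerPt c hM)
  have hrad2 : ∀ m, rad2 A (s m).2 = ⊥ := rad2_syz h (kerPt c) (kerInc_rad2 h c)
  have clean : ∀ m, ∀ x ∈ rad2 A (cs m).P,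
      ∃ y ∈ rad A (s (m + 1)).2, kerInc (cs m) y = x := by
    intro m
    by_contra hn
    obtain ⟨U, hU, i, r, hir, hi2⟩ := split_simple h (cs m) (hrad2 m) hn
    haveI := pt_finite (s (m + 1))
    haveI : Module.Finite A U := Module.Finite.of_surjective r fun u => ⟨i u, hir u⟩
    have hUAR : SatAR A U := satAR_retract (hAR (m + 1)) i r hir
    have hnot : ¬ EV A (s m).2 U 1 := not_ev_split (cs m) i r hir hi2
    obtain ⟨a, ⟨ea⟩⟩ := hall U
    have hsub : ∀ b, b ∈ Φ U → b ∈ Φ M := by
      intro b hb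
      obtain ⟨-, q, hq, hq'⟩ := Finset.mem_filter.1 hb
      refine Finset.mem_filter.2 ⟨Finset.mem_univ _, q + (m + 2), by omega, fun hv => hq' ?_⟩
      obtain ⟨q, rfl⟩ : ∃ q', q = q' + 1 := ⟨q - 1, by omega⟩
      refine ev_retract_left (ev_syz h (kerPt c) (S b) (m + 1) q ?_) i r hir
      rw [show q + 1 + (m + 1) = q + (m + 1) + 1 by omega]
      refine ev_kerPt c ?_
      rw [show q + (m + 1) + 2 = q + 1 + (m + 2) by omega]
      exact hv
    have haM : a ∈ Φ M := by
      refine Finset.mem_filter.2 ⟨Finset.mem_univ _, m + 2, by omega, fun hv => hnot ?_⟩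
      refine ev_syz h (kerPt c) U m 0 ?_
      rw [show 0 + 1 + m = m + 1 by omega]
      exact ev_kerPt c (ev_retract_right hv ea.toLinearMap ea.symm.toLinearMap ea.symm_apply_apply)
    have haU : a ∉ Φ U := by
      intro ha
      obtain ⟨-, q, hq, hq'⟩ := Finset.mem_filter.1 ha
      exact hq' (ev_retract_right (hUAR q hq).1 ea.symm.toLinearMap ea.toLinearMap
        ea.apply_symm_apply)
    have hlt : (Φ U).card < (Φ M).card := Finset.card_lt_card
      ((Finset.ssubset_iff_of_subset hsub).2 ⟨a, haM, haU⟩)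
    haveI : Module.Projective A U := ih U (by omega) inferInstance hUAR
    exact hnot (ev_projective (hAR m 1 le_rfl).2)
  haveI : IsNoetherian R A := inferInstance
  haveI := fun m => pt_finite (s m)
  haveI := fun m => (cs m).proj
  haveI := fun m => (cs m).fin
  haveI := fun i => (cQ i).proj
  haveI := fun i => (cQ i).fin
  haveI : Nontrivial (s 0).2 := h0
  haveI := finite_submodule_pi R (s 0).2
  haveI := fun i => finite_submodule_pi R (cQ i).P
  refine core (R := R) (S := fun i => S i) (Q := fun i => (cQ i).P) (X := fun m => (s m).2)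
    (P := fun m => (cs m).P) h hall (fun i => (cQ i).g) (fun i => (cQ i).surj)
    (fun i => (cQ i).ker_le) (fun m => (cs m).g) (fun m => kerInc (cs m)) (fun m => (cs m).surj)
    (fun m => (cs m).ker_le) (fun m => kerInc_exact (cs m)) clean (hrad2 0) ?_ ?_ ?_
  · intro m i f x
    cases m with
    | zero => exact kerPt_maps_rad c hM f x
    | succ m => exact kerPt_maps_rad (cs m) (hAR m) f x
  · intro m i f
    exact ev_extend (kerInc_exact (cs m)) (kerInc_injective (cs m)) (cs m).surj
      (ev_projective (hAR m 1 le_rfl).2) f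
  · intro m f
    refine ev_extend (kerInc_exact (cs m)) (kerInc_injective (cs m)) (cs m).surj ?_ f
    exact ev_syz h (kerPt c) _ m 0 (hAR 0 (0 + 1 + m) (by omega)).1

end Vale.Agent.P195
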