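import Mathlib

/-!
Radical layers of modules over a ring with radical cube zero, and minimal projective covers.
-/

namespace Vale.Agent.P195

variable (A : Type) [Ring A]

/-- The radical cube of `A` is zero, in element form. -/
def Cube0 : Prop :=
  ∀ a b c : A, a ∈ Ring.jacobson A → b ∈ Ring.jacobson A → c ∈ Ring.jacobson A → a * b * c = 0

theorem cube0_of_pow (h : Ring.jacobson A ^ 3 = ⊥) : Cube0 A := by
  intro a b c ha hb hc
  have h3 : Ring.jacobson A * Ring.jacobson A * Ring.jacobson A = ⊥ := by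
    rwa [Submodule.pow_succ, Submodule.pow_succ, Submodule.pow_one] at h
  have : a * b * c ∈ Ring.jacobson A * Ring.jacobson A * Ring.jacobson A :=
    Ideal.mul_mem_mul (Ideal.mul_mem_mul ha hb) hc
  simpa [h3] using this

variable (X : Type) [AddCommGroup X] [Module A X]

/-- `J • X`. -/
def rad : Submodule A X := Ring.jacobson A • ⊤

/-- `J • (J • X)`. -/
def rad2 : Submodule A X := Ring.jacobson A • rad A X

variable {A X}
variable {Y : Type} [AddCommGroup Y] [Module A Y]

theorem smul_mem_rad {a : A} (ha : a ∈ Ring.jacobson A) (x : X) : a • x ∈ rad A X :=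
  Submodule.smul_mem_smul ha Submodule.mem_top

theorem rad2_le : rad2 A X ≤ rad A X :=
  smul_mono_right _ le_top

theorem map_rad (f : X →ₗ[A] Y) : (rad A X).map f ≤ rad A Y := by
  rw [rad, Submodule.map_smul'']
  exact smul_mono_right _ le_top

theorem map_rad_eq {f : X →ₗ[A] Y} (hf : Function.Surjective f) : (rad A X).map f = rad A Y := by
  rw [rad, Submodule.map_smul'', Submodule.map_top, LinearMap.range_eq_top.2 hf, rad]

theorem apply_mem_rad (f : X →ₗ[A] Y) {x : X} (hx : x ∈ rad A X) : f x ∈ rad A Y :=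
  map_rad f (Submodule.mem_map_of_mem hx)

theorem apply_mem_rad2 (f : X →ₗ[A] Y) {x : X} (hx : x ∈ rad2 A X) : f x ∈ rad2 A Y := by
  have : (rad2 A X).map f ≤ rad2 A Y := by
    rw [rad2, Submodule.map_smul'']
    exact smul_mono_right _ (map_rad f)
  exact this (Submodule.mem_map_of_mem hx)

/-- A map into the radical sends the radical into the second radical. -/
theorem apply_mem_rad2_of_rad (f : X →ₗ[A] Y) (hf : ∀ x, f x ∈ rad A Y) {x : X}
    (hx : x ∈ rad A X) : f x ∈ rad2 A Y := by
  have : (rad A X).map f ≤ rad2 A Y := by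
    rw [rad, Submodule.map_smul'', rad2]
    refine smul_mono_right _ ?_
    rintro _ ⟨y, -, rfl⟩
    exact hf y
  exact this (Submodule.mem_map_of_mem hx)

theorem smul_rad2 (h : Cube0 A) {a : A} (ha : a ∈ Ring.jacobson A) {x : X}
    (hx : x ∈ rad2 A X) : a • x = 0 := by
  refine Submodule.smul_induction_on hx (fun b hb y hy => ?_)
    (fun u v hu hv => by rw [smul_add, hu, hv, add_zero])
  refine Submodule.smul_induction_on hy (fun c hc z _ => ?_)
    (fun u v hu hv => by rw [smul_add, smul_add, hu, hv, add_zero])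
  rw [smul_smul, smul_smul, h a b c ha hb hc, zero_smul]

/-- A map into the radical kills the second radical. -/
theorem apply_rad2_eq_zero (h : Cube0 A) (f : X →ₗ[A] Y) (hf : ∀ x, f x ∈ rad A Y) {x : X}
    (hx : x ∈ rad2 A X) : f x = 0 := by
  refine Submodule.smul_induction_on hx (fun b hb y hy => ?_)
    (fun u v hu hv => by rw [map_add, hu, hv, add_zero])
  rw [map_smul]
  exact smul_rad2 h hb (apply_mem_rad2_of_rad f hf hy)

theorem rad_eq_bot_iff : rad A X = ⊥ ↔ ∀ a ∈ Ring.jacobson A, ∀ x : X, a • x = 0 := by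
  constructor
  · intro h a ha x
    have := smul_mem_rad ha x
    rwa [h, Submodule.mem_bot] at this
  · intro h
    rw [eq_bot_iff, rad, Submodule.smul_le]
    intro a ha x _
    rw [h a ha x]; exact zero_mem _

theorem rad_submodule_eq_bot (N : Submodule A X)
    (h : ∀ a ∈ Ring.jacobson A, ∀ x ∈ N, a • x = 0) : rad A N = ⊥ :=
  rad_eq_bot_iff.2 fun a ha x => Subtype.ext (h a ha x x.2)

theorem rad_quotient_rad : rad A (X ⧸ rad A X) = ⊥ := by
  refine rad_eq_bot_iff.2 fun a ha q => ?_
  obtain ⟨x, rfl⟩ := Submodule.mkQ_surjective _ q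
  rw [← map_smul, Submodule.mkQ_apply, Submodule.Quotient.mk_eq_zero]
  exact smul_mem_rad ha x

/-- Nakayama's lemma, as the radical is nilpotent. -/
theorem eq_top_of_sup_rad (h : Cube0 A) {N : Submodule A X} (hN : N ⊔ rad A X = ⊤) : N = ⊤ := by
  have h1 : rad A X ≤ N ⊔ rad2 A X :=
    calc rad A X = Ring.jacobson A • (N ⊔ rad A X) := by rw [hN, rad]
      _ = Ring.jacobson A • N ⊔ rad2 A X := by rw [Submodule.smul_sup, rad2]
      _ ≤ N ⊔ rad2 A X := sup_le_sup_right Submodule.smul_le_right _
  have h3 : Ring.jacobson A • rad2 A X = ⊥ := by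
    rw [eq_bot_iff, Submodule.smul_le]
    intro a ha x hx
    rw [smul_rad2 h ha hx]; exact zero_mem _
  have h2 : rad2 A X ≤ N :=
    calc rad2 A X ≤ Ring.jacobson A • (N ⊔ rad2 A X) := smul_mono_right _ h1
      _ = Ring.jacobson A • N := by rw [Submodule.smul_sup, h3, sup_bot_eq]
      _ ≤ N := Submodule.smul_le_right
  exact top_le_iff.1 (hN.symm.le.trans (sup_le le_rfl (h1.trans (sup_le le_rfl h2))))

variable [IsArtinianRing A]

theorem isSemisimple_quotient_jacobson : IsSemisimpleModule A (A ⧸ Ring.jacobson A) := by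
  rw [IsArtinian.isSemisimpleModule_iff_jacobson, ← SetLike.coe_set_eq,
    ← Ring.coe_jacobson_quotient, Ring.jacobson_quotient_jacobson]
  rfl

theorem isSemisimple_of_rad [Module.Finite A X] (h : rad A X = ⊥) : IsSemisimpleModule A X := by
  have := isSemisimple_quotient_jacobson (A := A)
  obtain ⟨n, s, hs⟩ := Module.Finite.exists_fin (R := A) (M := X)
  let f : (Fin n → A ⧸ Ring.jacobson A) →ₗ[A] X :=
    ∑ i, ((Ring.jacobson A).liftQ (LinearMap.toSpanSingleton A X (s i))
      (fun a ha => LinearMap.mem_ker.2 (rad_eq_bot_iff.1 h a ha (s i)))) ∘ₗ LinearMap.proj i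
  refine IsSemisimpleModule.of_surjective f (LinearMap.range_eq_top.1 (top_le_iff.1 ?_))
  rw [← hs, Submodule.span_le]
  rintro _ ⟨i, rfl⟩
  refine ⟨Pi.single i (Submodule.Quotient.mk 1), ?_⟩
  simp only [f, LinearMap.coe_sum, Finset.sum_apply, LinearMap.coe_comp, Function.comp_apply,
    LinearMap.proj_apply]
  rw [Finset.sum_eq_single i]
  · rw [Pi.single_eq_same, Submodule.liftQ_apply, LinearMap.toSpanSingleton_apply, one_smul]
  · intro j _ hj; simp [hj]
  · simp

theorem rad_eq_bot_of_semisimple [IsSemisimpleModule A X] : rad A X = ⊥ :=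
  rad_eq_bot_iff.2 fun _ ha x =>
    Module.mem_annihilator.1 (IsSemisimpleModule.jacobson_le_annihilator A X ha) x

omit [IsArtinianRing A] in
/-- Idempotent endomorphisms of the top of a projective module lift. -/
theorem exists_lift_idem (h : Cube0 A) {P : Type} [AddCommGroup P] [Module A P]
    [Module.Projective A P] (e : (P ⧸ rad A P) →ₗ[A] (P ⧸ rad A P)) (hee : ∀ x, e (e x) = e x) :
    ∃ ε : P →ₗ[A] P, (∀ x, ε (ε x) = ε x) ∧
      ∀ x, (Submodule.Quotient.mk (ε x) : P ⧸ rad A P) = e (Submodule.Quotient.mk x) := by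
  let π : Module.End A P →+* Module.End A (P ⧸ rad A P) :=
    { toFun := fun f => (rad A P).mapQ (rad A P) f fun x hx => apply_mem_rad f hx
      map_one' := Submodule.linearMap_qext _ (LinearMap.ext fun _ => rfl)
      map_mul' := fun a b => Submodule.linearMap_qext _ (LinearMap.ext fun _ => rfl)
      map_zero' := Submodule.linearMap_qext _ (LinearMap.ext fun _ => rfl)
      map_add' := fun a b => Submodule.linearMap_qext _ (LinearMap.ext fun _ => rfl) }
  have hπ : ∀ f x, π f (Submodule.Quotient.mk x) = Submodule.Quotient.mk (f x) := fun _ _ => rfl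
  have hnil : ∀ f ∈ RingHom.ker π, IsNilpotent f := by
    intro f hf
    have hf' : ∀ x, f x ∈ rad A P := by
      intro x
      rw [← Submodule.Quotient.mk_eq_zero, ← hπ, RingHom.mem_ker.1 hf, LinearMap.zero_apply]
    refine ⟨3, LinearMap.ext fun x => ?_⟩
    show (f ^ 3) x = 0
    rw [pow_succ', Module.End.mul_apply]
    refine apply_rad2_eq_zero h f hf' ?_
    rw [pow_succ', Module.End.mul_apply, pow_one]
    exact apply_mem_rad2_of_rad f hf' (hf' x)
  obtain ⟨f, hf⟩ := Module.projective_lifting_property (rad A P).mkQ (e ∘ₗ (rad A P).mkQ)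
    (Submodule.mkQ_surjective _)
  have he : π f = e := Submodule.linearMap_qext _ hf
  obtain ⟨ε, hε, hπε⟩ := exists_isIdempotentElem_eq_of_ker_isNilpotent π hnil e
    (RingHom.mem_range.2 ⟨f, he⟩) (LinearMap.ext hee)
  exact ⟨ε, fun x => LinearMap.congr_fun hε.eq x, fun x => by rw [← hπ, hπε]⟩

/-- A projective cover: a finite projective module, a surjection with kernel in the radical. -/
structure Cover (A : Type) [Ring A] (X : Type) [AddCommGroup X] [Module A X] where
  n : ℕ
  P : Submodule A (Fin n → A)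
  proj : Module.Projective A P
  fin : Module.Finite A P
  g : P →ₗ[A] X
  surj : Function.Surjective g
  ker_le : LinearMap.ker g ≤ rad A P

theorem exists_cover (h : Cube0 A) [Module.Finite A X] : Nonempty (Cover A X) := by
  obtain ⟨n, s, hs⟩ := Module.Finite.exists_fin (R := A) (M := X)
  let g₀ : (Fin n → A) →ₗ[A] X := Fintype.linearCombination A s
  have hg₀ : Function.Surjective g₀ := by
    rw [← LinearMap.range_eq_top]
    simp [g₀, Fintype.range_linearCombination, hs]
  let C : Set (Submodule A (Fin n → A)) :=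
    {P | Module.Projective A P ∧ Function.Surjective (g₀ ∘ₗ P.subtype)}
  obtain ⟨P, ⟨hP, hPs⟩, hmin⟩ := (IsWellFounded.wf (r := (· < ·))).has_min C
    ⟨⊤, Module.Projective.of_equiv Submodule.topEquiv.symm,
      fun x => by obtain ⟨y, rfl⟩ := hg₀ x; exact ⟨⟨y, trivial⟩, rfl⟩⟩
  haveI : Module.Finite A P := Module.Finite.iff_fg.2 (IsNoetherian.noetherian P)
  haveI := hP
  let g := g₀ ∘ₗ P.subtype
  refine ⟨⟨n, P, hP, inferInstance, g, hPs, ?_⟩⟩
  by_contra hK
  haveI := isSemisimple_of_rad (rad_quotient_rad (A := A) (X := P))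
  let Kb : Submodule A (P ⧸ rad A P) := (LinearMap.ker g).map (rad A P).mkQ
  obtain ⟨D, hD⟩ := exists_isCompl Kb
  let e : Module.End A (P ⧸ rad A P) := D.subtype ∘ₗ D.projectionOnto Kb hD.symm
  have hee : IsIdempotentElem e := by
    refine LinearMap.ext fun x => ?_
    simp [e, Module.End.mul_apply]
  obtain ⟨ε, hεε, hmk⟩ := exists_lift_idem h e (fun x => LinearMap.congr_fun hee.eq x)
  let N : Submodule A (Fin n → A) := (LinearMap.range ε).map P.subtype
  have hεfix : ∀ x ∈ LinearMap.range ε, ε x = x := by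
    rintro _ ⟨y, rfl⟩; exact hεε y
  have hNproj : Module.Projective A N := by
    haveI : Module.Projective A (LinearMap.range ε) :=
      Module.Projective.of_split (LinearMap.range ε).subtype ε.rangeRestrict
        (LinearMap.ext fun x => Subtype.ext (hεfix x x.2))
    exact Module.Projective.of_equiv
      (Submodule.equivMapOfInjective P.subtype P.subtype_injective (LinearMap.range ε))
  have hNle : N ≤ P := Submodule.map_subtype_le _ _
  have hNsurj : Function.Surjective (g₀ ∘ₗ N.subtype) := by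
    rw [← LinearMap.range_eq_top, LinearMap.range_comp, Submodule.range_subtype]
    refine eq_top_of_sup_rad h (top_le_iff.1 fun x _ => ?_)
    obtain ⟨p, rfl⟩ := hPs x
    have hq : e (Submodule.Quotient.mk p) - Submodule.Quotient.mk p ∈ Kb := by
      have h2 := Submodule.projectionOnto_apply_eq_zero_iff hD.symm
        (x := (Submodule.Quotient.mk p : P ⧸ rad A P) - e (Submodule.Quotient.mk p))
      rw [← Submodule.neg_mem_iff, neg_sub]
      refine h2.1 ?_
      rw [map_sub, sub_eq_zero]
      exact (Submodule.projectionOnto_apply_left hD.symm _).symm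
    obtain ⟨k, hk, hk'⟩ := hq
    have hd : ε p - p - k ∈ rad A P := by
      rw [← Submodule.Quotient.mk_eq_zero, Submodule.Quotient.mk_sub, Submodule.Quotient.mk_sub,
        hmk, ← hk', Submodule.mkQ_apply, sub_self]
    have h1 := apply_mem_rad g hd
    rw [map_sub, map_sub, LinearMap.mem_ker.1 hk, sub_zero] at h1
    refine Submodule.mem_sup.2 ⟨g (ε p), ⟨_, ⟨_, ⟨p, rfl⟩, rfl⟩, rfl⟩, -(g (ε p) - g p),
      Submodule.neg_mem _ h1, ?_⟩
    show g (ε p) + -(g (ε p) - g p) = g p
    abel
  refine hmin N ⟨hNproj, hNsurj⟩ (lt_of_le_of_ne hNle fun hNP => hK fun k hk => ?_)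
  have hfix : ∀ x : P, ε x = x := by
    intro x
    have : (x : Fin n → A) ∈ N := (SetLike.ext_iff.1 hNP _).2 x.2
    obtain ⟨y, hy, hxy⟩ := this
    rw [← Subtype.ext hxy]
    exact hεfix y hy
  have h1 : e (Submodule.Quotient.mk k) = Submodule.Quotient.mk k := by rw [← hmk, hfix]
  have hkb : Submodule.Quotient.mk k ∈ Kb := ⟨k, hk, rfl⟩
  have h2 : (Submodule.Quotient.mk k : P ⧸ rad A P) ∈ D := h1 ▸ (D.projectionOnto Kb hD.symm _).2
  exact (Submodule.Quotient.mk_eq_zero _).1
    (Submodule.disjoint_def.1 hD.disjoint _ hkb h2)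

end Vale.Agent.P195
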